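import Crest.Agent.X212.Flp68.Main
import Crest.Agent.X212.Flp40.End
import Crest.Agent.X212.Lns95.Fin
import Crest.Agent.X212.Dck68.Main

/-!
# Row 212, FLIP (helper68): the clause at level one
-/

set_option autoImplicit false
noncomputable section

namespace Crest.Agent.X212.Flp68
open An M Nd18 G75 Lns95 Num99

variable {κ lam : Type} [Fintype κ] [Fintype lam] [DecidableEq lam] {Lm : LM κ lam}

theorem flipStmt (H : Lv0 Lm) : FlipStmt κ lam :=
  fun _ _ _ _ _ _ _ _ _ _ _ _ _ _ _ d s hP ho hF hd hB hG fl A a i k hβ l a₁ =>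
    let ⟨n, _, _, N, _, f, e⟩ := Flp40.flip (H.cjx _) (H.cju _) (H.lima _ _ _) (H.cls _ _ _) s hP ho hF
      d hd hB hG fl A a i k hβ l a₁
    ⟨n, N.adm, f, e⟩

/-- **CLAUSE ONE** from the flat clauses -/
theorem oneS (H : LH Lm) (L : IxL κ (lam ⊕ lam) 8) (fa : FaS Lm) (fd : FdS Lm) : OneS Lm :=
  one H L (flipStmt (lv0 H)) (Lix26.geo2 H Dck68.deck) fa fd

end Crest.Agent.X212.Flp68
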